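import Vale.Agent.P213.Main.Oriental.Statement
import Vale.Agent.P213.Nerve.Nerve
import Vale.Agent.P213.WE.HtpcBasic
import Vale.Agent.P213.WE.KanTarget

/-!
# The compact nerve is the nerve of the development; transport along it
-/

open CategoryTheory CategoryTheory.Limits HomotopicalAlgebra
open scoped SSet.modelCategoryQuillen

namespace Vale.Agent.P213

noncomputable section

namespace Oriental

/-- The compact orientals are `ν` of the chain complexes. -/
def objIso (m : ℕ) : obj m ≅ ADC.nu (ADC.oriental m) where
  hom :=
    { map := toTable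
      map_src := fun i a => toTable_face i false a
      map_tgt := fun i a => toTable_face i true a
      map_comp := fun i a b h _ => toTable_comp i a b h }
  inv :=
    { map := ofTable
      map_src := fun i T => toTable_injective
        ((toTable_ofTable _).trans ((toTable_face i false (ofTable T)).trans
          (congrArg (fun u : ADC.Table _ => u.face i false) (toTable_ofTable T))).symm)
      map_tgt := fun i T => toTable_injective
        ((toTable_ofTable _).trans ((toTable_face i true (ofTable T)).trans
          (congrArg (fun u : ADC.Table _ => u.face i true) (toTable_ofTable T))).symm)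
      map_comp := fun i T U h h' => toTable_injective (by
        show toTable (ofTable (ADC.Table.comp i T U h)) = toTable (comp i (ofTable T) (ofTable U) h')
        rw [toTable_ofTable]
        refine Eq.trans ?_ (toTable_comp i (ofTable T) (ofTable U) h').symm
        have key : ∀ (T' U' : ADC.Table (ADC.oriental m)) (h''), T' = T → U' = U →
            ADC.Table.comp i T U h = ADC.Table.comp i T' U' h'' := by
          rintro _ _ _ rfl rfl; rfl
        exact key _ _ _ (toTable_ofTable T) (toTable_ofTable U)) }
  hom_inv_id := OCat.hom_ext fun a => toTable_injective (toTable_ofTable (toTable a))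
  inv_hom_id := OCat.hom_ext fun T => toTable_ofTable T

/-- The orientals of the development. -/
def functorIso : functor ≅ orientals :=
  NatIso.ofComponents (fun Δ => objIso Δ.len) fun φ =>
    OCat.hom_ext fun a => toTable_map φ.toOrderHom a

/-- The nerves agree. -/
def nerveIso (n : ℕ∞) : NCat.nerveFunctor n ≅ nerveN n :=
  Functor.isoWhiskerLeft (NCat.incl n) (Functor.isoWhiskerLeft uliftYoneda
    ((Functor.whiskeringLeft _ _ _).mapIso (NatIso.op functorIso)))

end Oriental

universe u

variable {C : Type u} [Category.{0} C] {G G' : C ⥤ SSet.{0}}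

/-- The theorem only depends on the nerve up to isomorphism. -/
theorem ThomasonTheorem.of_iso (e : G ≅ G') (h : ThomasonTheorem G) : ThomasonTheorem G' := by
  have := twoThreeGoal.1
  have hW : thomasonW G = thomasonW G' := by
    ext X Y f
    exact IsWE.arrow_mk_iso_iff (Arrow.isoMk (e.app X) (e.app Y) (e.hom.naturality f).symm)
  have hF : thomasonF G = thomasonF G' := by
    ext X Y f
    exact KanFib.arrow_mk_iso_iff (Arrow.isoMk ((SSet.ex ⋙ SSet.ex).mapIso (e.app X))
      ((SSet.ex ⋙ SSet.ex).mapIso (e.app Y))
      ((((Functor.isoWhiskerRight e (SSet.ex ⋙ SSet.ex))).hom.naturality f).symm))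
  have hC : thomasonC G = thomasonC G' := by rw [thomasonC, thomasonC, hW, hF]
  obtain ⟨hM, ⟨c, ⟨adj⟩⟩, hQ⟩ := h
  refine ⟨by rwa [← hW, ← hF, ← hC], ⟨c, ⟨adj.ofNatIsoRight e⟩⟩, fun c' adj' => ?_⟩
  obtain ⟨h₁, h₂⟩ := hQ c' (adj'.ofNatIsoRight e.symm)
  refine ⟨fun A B i hi => by rw [← hW, ← hC]; exact h₁ i hi,
    fun T hT X Y hY f => ?_⟩
  have hb := h₂ T hT X Y (fun t => by rw [hF]; exact hY t) f
  rw [← hW]
  refine hb.trans ?_
  have he : (SSet.sdExAdjunction.comp (SSet.sdExAdjunction.comp (adj'.ofNatIsoRight e.symm))).homEquiv X Y f =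
      (SSet.sdExAdjunction.comp (SSet.sdExAdjunction.comp adj')).homEquiv X Y f ≫
        (SSet.ex ⋙ SSet.ex).map (e.inv.app Y) := by
    simp only [Adjunction.comp_homEquiv, Equiv.trans_apply, Adjunction.homEquiv_ofNatIsoRight_apply,
      Iso.symm_hom, Functor.comp_map, Adjunction.homEquiv_naturality_right]
    rfl
  rw [he]
  exact IsWE.arrow_mk_iso_iff (Arrow.isoMk (Iso.refl _)
    ((SSet.ex ⋙ SSet.ex).mapIso (e.app Y)) (by simp))

end

end Vale.Agent.P213
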