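import Vale.Agent.P213.Main.Oriental.Cells
import Vale.Agent.P213.Cplx.Chains
import Mathlib.Data.Finset.Sort
import Mathlib.Data.Fintype.Pi

/-!
# The cells of the orientals are the cells of `ν` of the chains of a linear order
-/

open CategoryTheory

namespace Vale.Agent.P213.Oriental

open ADC

noncomputable section

variable {m l : ℕ} {k : ℕ}

noncomputable instance chainFintype (m k : ℕ) : Fintype (Chain (Fin (m + 1)) k) := Fintype.ofFinite _

/-- The simplex of a chain. -/
def img (c : Chain (Fin (m + 1)) k) : Finset (Fin (m + 1)) := Finset.univ.image c.1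

lemma card_img (c : Chain (Fin (m + 1)) k) : (img c).card = k + 1 := by
  simp [img, Finset.card_image_of_injective _ c.2.injective]

lemma img_injective : Function.Injective (img : Chain (Fin (m + 1)) k → _) := fun a b h =>
  Subtype.ext ((StrictMono.range_inj a.2 b.2).1 (by
    ext v; simpa [img] using Finset.ext_iff.1 h v))

lemma exists_img {t : Finset (Fin (m + 1))} (h : t.card = k + 1) :
    ∃ c : Chain (Fin (m + 1)) k, img c = t :=
  ⟨⟨t.orderEmbOfFin h, (t.orderEmbOfFin h).strictMono⟩, by simp [img]⟩

lemma onGen_apply {α β : Type} [Fintype α] (g : α → β →₀ ℤ) (y : α →₀ ℤ) (b : β) :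
    onGen g y b = ∑ a, y a * g a b := by
  rw [onGen, Finsupp.linearCombination_apply, Finsupp.sum_fintype _ _ (fun i => by simp),
    Finsupp.finsetSum_apply]
  simp

/-- Sums over chains are sums over sets. -/
lemma sum_img {M : Type} [AddCommMonoid M] (g : Finset (Fin (m + 1)) → M) :
    ∑ c : Chain (Fin (m + 1)) k, g (img c) = ∑ t with t.card = k + 1, g t :=
  Finset.sum_bij (fun c _ => img c) (fun c _ => by simp [card_img c])
    (fun _ _ _ _ h => img_injective h)
    (fun t ht => by
      obtain ⟨c, hc⟩ := exists_img (Finset.mem_filter.1 ht).2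
      exact ⟨c, Finset.mem_univ _, hc⟩)
    fun _ _ => rfl

lemma pos_face (a : Chain (Fin (m + 1)) (k + 1)) (i : Fin (k + 2)) (c : Chain (Fin (m + 1)) k)
    (h : ADC.face a.1 i = c.1) : pos (a.1 i) (img c) = i := by
  have : (img c).filter (· < a.1 i) = (Finset.Iio i).image a.1 := by
    ext v
    simp only [img, ← h, Finset.mem_filter, Finset.mem_image, Finset.mem_univ, true_and,
      Finset.mem_Iio, ADC.face, Function.comp_apply]
    constructor
    · rintro ⟨⟨j, rfl⟩, hlt⟩
      exact ⟨i.succAbove j, a.2.lt_iff_lt.1 hlt, rfl⟩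
    · rintro ⟨j, hj, rfl⟩
      obtain ⟨j', rfl⟩ := Fin.exists_succAbove_eq hj.ne
      exact ⟨⟨j', rfl⟩, a.2 hj⟩
  rw [pos, this, Finset.card_image_of_injective _ a.2.injective, Fin.card_Iio]

/-- The boundary, in terms of sets. -/
lemma d_apply (y : Chain (Fin (m + 1)) (k + 1) →₀ ℤ) (g : Finset (Fin (m + 1)) → ℤ)
    (hy : ∀ a, y a = g (img a)) (c : Chain (Fin (m + 1)) k) :
    (oriental m).d k y c = ∑ v ∈ (img c)ᶜ, (-1) ^ pos v (img c) * g (insert v (img c)) := by
  classical
  show onGen (fun a : Chain (Fin (m + 1)) (k + 1) => bdryEl a.1) y c = _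
  rw [onGen_apply]
  have key : ∀ a : Chain (Fin (m + 1)) (k + 1), y a * bdryEl a.1 c =
      ∑ i : Fin (k + 2), if ADC.face a.1 i = c.1 then (-1 : ℤ) ^ (i : ℕ) * g (img a) else 0 := by
    intro a
    rw [bdryEl, Finsupp.finsetSum_apply, Finset.mul_sum]
    refine Finset.sum_congr rfl fun i _ => ?_
    rw [el_of_strictMono (a.2.comp (Fin.strictMono_succAbove i)), Finsupp.smul_apply,
      Finsupp.single_apply, hy]
    simp only [Subtype.ext_iff]
    split_ifs <;> simp [mul_comm]
  rw [Finset.sum_congr rfl fun a _ => key a, ← Finset.sum_product', Finset.univ_product_univ,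
    ← Finset.sum_filter]
  have hins : ∀ (a : Chain (Fin (m + 1)) (k + 1)) (i : Fin (k + 2)),
      ADC.face a.1 i = c.1 → img a = insert (a.1 i) (img c) := by
    intro a i h
    ext v
    simp only [img, ← h, Finset.mem_insert, Finset.mem_image, Finset.mem_univ, true_and,
      ADC.face, Function.comp_apply]
    constructor
    · rintro ⟨j, rfl⟩
      rcases eq_or_ne j i with rfl | hj
      · exact Or.inl rfl
      · obtain ⟨j', rfl⟩ := Fin.exists_succAbove_eq hj
        exact Or.inr ⟨j', rfl⟩
    · rintro (rfl | ⟨j, rfl⟩)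
      · exact ⟨i, rfl⟩
      · exact ⟨_, rfl⟩
  refine Finset.sum_bij (fun p _ => p.1.1 p.2) (fun p hp => ?_) (fun p hp q hq e => ?_)
    (fun v hv => ?_) fun p hp => ?_
  · obtain ⟨a, i⟩ := p
    simp only [Finset.mem_filter, Finset.mem_univ, true_and] at hp
    simp only [Finset.mem_compl, img, ← hp, Finset.mem_image, Finset.mem_univ, true_and,
      ADC.face, Function.comp_apply, not_exists]
    exact fun j hj => Fin.succAbove_ne i j (a.2.injective hj)
  · obtain ⟨a, i⟩ := p
    obtain ⟨b, j⟩ := q
    simp only [Finset.mem_filter, Finset.mem_univ, true_and] at hp hq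
    obtain rfl : a = b := img_injective (by rw [hins a i hp, hins b j hq]; exact congrArg (insert · _) e)
    obtain rfl : i = j := a.2.injective e
    rfl
  · rw [Finset.mem_compl] at hv
    obtain ⟨a, ha⟩ := exists_img (k := k + 1) (t := insert v (img c))
      (by rw [Finset.card_insert_of_notMem hv, card_img])
    obtain ⟨i, hi⟩ : ∃ i, a.1 i = v := by
      have : v ∈ img a := by rw [ha]; exact Finset.mem_insert_self v (img c)
      simpa [img] using this
    refine ⟨(a, i), Finset.mem_filter.2 ⟨Finset.mem_univ _, ?_⟩, hi⟩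
    refine congrArg Subtype.val (img_injective
      (a₁ := ⟨ADC.face a.1 i, a.2.comp (Fin.strictMono_succAbove i)⟩) (a₂ := c) ?_)
    apply Finset.eq_of_subset_of_card_le
    · intro w hw
      simp only [img, Finset.mem_image, Finset.mem_univ, true_and, ADC.face,
        Function.comp_apply] at hw
      obtain ⟨j, rfl⟩ := hw
      have hmem : a.1 (i.succAbove j) ∈ insert v (img c) := ha ▸ by simp [img]
      exact (Finset.mem_insert.1 hmem).resolve_left
        fun e => Fin.succAbove_ne i j (a.2.injective (e.trans hi.symm))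
    · rw [card_img, card_img]
  · obtain ⟨a, i⟩ := p
    simp only [Finset.mem_filter, Finset.mem_univ, true_and] at hp
    rw [pos_face a i c hp, ← hins a i hp]

lemma ε_apply (y : Chain (Fin (m + 1)) 0 →₀ ℤ) : (oriental m).ε y = ∑ c, y c := by
  show onGen (fun _ : Chain (Fin (m + 1)) 0 => (1 : ℤ)) y = _
  rw [onGen, Finsupp.linearCombination_apply, Finsupp.sum_fintype _ _ (fun i => by simp)]
  simp

/-- The table of a cell. -/
def toTable (a : Cell m) : Table (oriental m) where
  x k s := Finsupp.equivFunOnFinite.symm fun c => a.x k s (img c)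
  nonneg k s c := by simpa using a.isCell.1 k s (img c)
  aug s := by
    rw [ε_apply]
    show ∑ c, a.x 0 s (img c) = 1
    rw [sum_img, Finset.sum_filter, ← a.isCell.2.2.1 s]
    refine Finset.sum_congr rfl fun t _ => ?_
    split_ifs with h
    · rfl
    · exact (a.isCell.2.1 0 s t h).symm
  bdry k s := by
    refine Finsupp.ext fun c => ?_
    rw [d_apply _ (a.x (k + 1) s) (fun _ => rfl), a.isCell.2.2.2.1 k s _ (card_img c)]
    rfl
  exists_zero := by
    obtain ⟨N, hN⟩ := a.isCell.2.2.2.2
    exact ⟨N, fun k s h => Finsupp.ext fun c => hN k s _ h⟩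

@[simp] lemma toTable_x (a : Cell m) (k : ℕ) (s : Bool) (c : Chain (Fin (m + 1)) k) :
    (toTable a).x k s c = a.x k s (img c) := rfl

lemma toTable_injective : Function.Injective (toTable : Cell m → _) := by
  intro a b h
  refine Cell.ext (funext fun k => funext fun s => funext fun t => ?_)
  by_cases ht : t.card = k + 1
  · obtain ⟨c, rfl⟩ := exists_img ht
    rw [← toTable_x, h, toTable_x]
  · rw [a.isCell.2.1 k s t ht, b.isCell.2.1 k s t ht]

/-- A family agreeing with a table is a cell. -/
lemma isCell_of_table (T : Table (oriental m)) (x : ℕ → Bool → Finset (Fin (m + 1)) → ℤ)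
    (hsupp : ∀ k s t, t.card ≠ k + 1 → x k s t = 0)
    (hx : ∀ k s c, T.x k s c = x k s (img c)) : IsCell x := by
  refine ⟨fun k s t => ?_, hsupp, fun s => ?_, fun k s t ht => ?_, ?_⟩
  · by_cases ht : t.card = k + 1
    · obtain ⟨c, rfl⟩ := exists_img ht
      rw [← hx]
      exact T.nonneg k s c
    · rw [hsupp k s t ht]
  · rw [← T.aug s, ε_apply, Finset.sum_congr rfl fun c _ => hx 0 s c, sum_img,
      Finset.sum_filter]
    refine Finset.sum_congr rfl fun t _ => ?_
    split_ifs with h
    · rfl
    · exact hsupp 0 s t h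
  · obtain ⟨c, rfl⟩ := exists_img ht
    rw [← d_apply _ (x (k + 1) s) (hx (k + 1) s), T.bdry, ← hx, ← hx]
    rfl
  · obtain ⟨N, hN⟩ := T.exists_zero
    refine ⟨N, fun k s t hk => ?_⟩
    by_cases ht : t.card = k + 1
    · obtain ⟨c, rfl⟩ := exists_img ht
      rw [← hx, hN k s hk]
      rfl
    · exact hsupp k s t ht

lemma faceX_supp (a : Cell m) (i : ℕ) (e : Bool) (k : ℕ) (s : Bool) (t : Finset (Fin (m + 1)))
    (h : t.card ≠ k + 1) : faceX i e a.x k s t = 0 := by
  simp [faceX, a.isCell.2.1 k _ t h]

lemma table_face (a : Cell m) (i : ℕ) (e : Bool) (k : ℕ) (s : Bool)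
    (c : Chain (Fin (m + 1)) k) :
    ((toTable a).face i e).x k s c = faceX i e a.x k s (img c) := by
  rw [Table.face_x, faceX]
  split_ifs <;> rfl

/-- Faces of cells are cells. -/
theorem faceX_mem (a : Cell m) (i : ℕ) (e : Bool) : IsCell (faceX i e a.x) :=
  isCell_of_table _ _ (faceX_supp a i e) (table_face a i e)

lemma toTable_mk_faceX (a : Cell m) (i : ℕ) (e : Bool) :
    toTable ⟨faceX i e a.x, faceX_mem a i e⟩ = (toTable a).face i e :=
  Table.ext (funext fun k => funext fun s => Finsupp.ext fun c => (table_face a i e k s c).symm)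

lemma composable {a b : Cell m} {i : ℕ}
    (h : (⟨faceX i false a.x, faceX_mem a i false⟩ : Cell m) =
      ⟨faceX i true b.x, faceX_mem b i true⟩) :
    (toTable a).face i false = (toTable b).face i true := by
  rw [← toTable_mk_faceX, ← toTable_mk_faceX, h]

lemma table_comp (a b : Cell m) (i : ℕ) (h) (k : ℕ) (s : Bool) (c : Chain (Fin (m + 1)) k) :
    (Table.comp i (toTable a) (toTable b) h).x k s c = compX i a.x b.x k s (img c) := by
  rw [Table.comp_x, compX]
  split_ifs <;> rfl

/-- Composites of cells are cells. -/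
theorem compX_mem {a b : Cell m} {i : ℕ}
    (h : (⟨faceX i false a.x, faceX_mem a i false⟩ : Cell m) =
      ⟨faceX i true b.x, faceX_mem b i true⟩) : IsCell (compX i a.x b.x) :=
  isCell_of_table _ _ (fun k s t ht => by
    simp [compX, a.isCell.2.1 k _ t ht, b.isCell.2.1 k _ t ht])
    (table_comp a b i (composable h))

lemma table_map (f : Fin (m + 1) →o Fin (l + 1)) (a : Cell m) (k : ℕ) (s : Bool)
    (c : Chain (Fin (l + 1)) k) :
    (Table.map (chainsMap f) (toTable a)).x k s c = mapX f a.x k s (img c) := by
  classical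
  show onGen (fun b : Chain (Fin (m + 1)) k => el (f ∘ b.1)) ((toTable a).x k s) c = _
  rw [onGen_apply, mapX, if_pos (card_img c)]
  have key : ∀ b : Chain (Fin (m + 1)) k, (toTable a).x k s b * el (f ∘ b.1) c =
      if (img b).image f = img c then a.x k s (img b) else 0 := by
    intro b
    have himg : (img b).image f = Finset.univ.image (f ∘ b.1) := Finset.image_image
    by_cases hs : StrictMono (f ∘ b.1)
    · rw [el_of_strictMono hs, Finsupp.single_apply, toTable_x, himg,
        show Finset.univ.image (f ∘ b.1) = img (⟨f ∘ b.1, hs⟩ : Chain _ k) from rfl]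
      simp only [img_injective.eq_iff]
      split_ifs <;> simp
    · rw [el_of_not hs, if_neg]
      · simp
      · intro e
        have hcard : (Finset.univ.image (f ∘ b.1)).card = (Finset.univ : Finset (Fin (k + 1))).card := by
          rw [← himg, e, card_img]; simp
        have hinj : Function.Injective (f ∘ b.1) := by simpa using Finset.card_image_iff.1 hcard
        exact hs ((f.monotone.comp b.2.monotone).strictMono_of_injective hinj)
  rw [Finset.sum_congr rfl fun b _ => key b,
    sum_img (fun u => if u.image f = img c then a.x k s u else 0), Finset.sum_filter,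
    Finset.sum_filter]
  refine Finset.sum_congr rfl fun u _ => ?_
  split_ifs with h₁ h₂ <;> first | rfl | exact (a.isCell.2.1 k s u h₁).symm

/-- Images of cells are cells. -/
theorem mapX_mem (f : Fin (m + 1) →o Fin (l + 1)) (a : Cell m) : IsCell (mapX f a.x) :=
  isCell_of_table _ _ (fun k s t ht => if_neg ht) (table_map f a)

/-- The cell of a table. -/
def ofTable (T : Table (oriental m)) : Cell m where
  x k s t := if h : t.card = k + 1 then T.x k s ⟨t.orderEmbOfFin h, (t.orderEmbOfFin h).strictMono⟩
    else 0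
  isCell := isCell_of_table T _ (fun k s t ht => dif_neg ht) fun k s c => by
    rw [dif_pos (card_img c)]
    congr 1
    exact img_injective (by simp [img])

lemma toTable_ofTable (T : Table (oriental m)) : toTable (ofTable T) = T := by
  refine Table.ext (funext fun k => funext fun s => Finsupp.ext fun c => ?_)
  show dite ((img c).card = k + 1) _ _ = T.x k s c
  rw [dif_pos (card_img c)]
  congr 1
  exact img_injective (by simp [img])

end

end Vale.Agent.P213.Oriental
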