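import Mathlib.Algebra.BigOperators.Fin
import Mathlib.Data.Fintype.Powerset

/-!
# Cells of the orientals

A cell of the `m`-th oriental: for each degree `k` and each side `s` (`false` source, `true` target)
a nonnegative combination `x k s` of the `k`-simplices of `Δ^m` (subsets of `Fin (m + 1)` with
`k + 1` elements), of augmentation one in degree zero, with boundary `x k true - x k false`.
-/

namespace Vale.Agent.P213.Oriental

/-- The position of `a` in `insert a t`. -/
def pos {m : ℕ} (a : Fin (m + 1)) (t : Finset (Fin (m + 1))) : ℕ := (t.filter (· < a)).card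

/-- The conditions on a cell of the oriental. -/
def IsCell {m : ℕ} (x : ℕ → Bool → Finset (Fin (m + 1)) → ℤ) : Prop :=
  (∀ k s t, 0 ≤ x k s t) ∧ (∀ k s t, t.card ≠ k + 1 → x k s t = 0) ∧ (∀ s, ∑ t, x 0 s t = 1) ∧
    (∀ k s t, t.card = k + 1 →
      ∑ a ∈ tᶜ, (-1) ^ pos a t * x (k + 1) s (insert a t) = x k true t - x k false t) ∧
    ∃ N, ∀ k s t, N ≤ k → x k s t = 0

/-- A cell of the oriental. -/
@[ext]
structure Cell (m : ℕ) where
  x : ℕ → Bool → Finset (Fin (m + 1)) → ℤ
  isCell : IsCell x

/-- The `i`-dimensional source (`e = false`) or target (`e = true`). -/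
def faceX {m : ℕ} (i : ℕ) (e : Bool) (x : ℕ → Bool → Finset (Fin (m + 1)) → ℤ) :
    ℕ → Bool → Finset (Fin (m + 1)) → ℤ :=
  fun k s t => if k < i then x k s t else if k = i then x k e t else 0

/-- The composite `a ∘_i b`, `a` after `b`. -/
def compX {m : ℕ} (i : ℕ) (a b : ℕ → Bool → Finset (Fin (m + 1)) → ℤ) :
    ℕ → Bool → Finset (Fin (m + 1)) → ℤ :=
  fun k s t => if k < i then a k s t else
    if k = i then (if s then a k true t else b k false t) else a k s t + b k s t

/-- The image under a map of vertices, degenerate simplices going to zero. -/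
def mapX {m l : ℕ} (f : Fin (m + 1) → Fin (l + 1))
    (x : ℕ → Bool → Finset (Fin (m + 1)) → ℤ) : ℕ → Bool → Finset (Fin (l + 1)) → ℤ :=
  fun k s t => if t.card = k + 1 then ∑ u with u.image f = t, x k s u else 0

end Vale.Agent.P213.Oriental
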