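import Vale.Agent.P213.Main.Oriental.Bridge

/-!
# Faces, composites and images of cells of the orientals are cells
-/

namespace Vale.Agent.P213.Oriental

variable {m l : ℕ}

theorem isCell_faceX (a : Cell m) (i : ℕ) (e : Bool) : IsCell (faceX i e a.x) := faceX_mem a i e

theorem isCell_compX {a b : Cell m} {i : ℕ}
    (h : (⟨faceX i false a.x, isCell_faceX a i false⟩ : Cell m) =
      ⟨faceX i true b.x, isCell_faceX b i true⟩) : IsCell (compX i a.x b.x) := compX_mem h

theorem isCell_mapX (f : Fin (m + 1) →o Fin (l + 1)) (a : Cell m) : IsCell (mapX f a.x) :=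
  mapX_mem f a

end Vale.Agent.P213.Oriental
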