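import Vale.Agent.P213.Main.Oriental.Closed
import Vale.Agent.P213.Basic.OCat
import Mathlib.AlgebraicTopology.SimplexCategory.Basic

/-!
# The orientals as a functor to strict ω-categories

Cells as in `Oriental.Cell`; faces and composites degreewise.
-/

open CategoryTheory

namespace Vale.Agent.P213.Oriental

variable {m l : ℕ}

/-- Source (`e = false`) and target (`e = true`). -/
def face (i : ℕ) (e : Bool) (a : Cell m) : Cell m := ⟨faceX i e a.x, isCell_faceX a i e⟩

lemma toTable_face (i : ℕ) (e : Bool) (a : Cell m) :
    toTable (face i e a) = (toTable a).face i e := toTable_mk_faceX a i e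

/-- The composite `a ∘_i b`. -/
def comp (i : ℕ) (a b : Cell m) (h : face i false a = face i true b) : Cell m :=
  ⟨compX i a.x b.x, isCell_compX h⟩

lemma toTable_comp (i : ℕ) (a b : Cell m) (h : face i false a = face i true b) :
    toTable (comp i a b h) = ADC.Table.comp i (toTable a) (toTable b) (composable h) :=
  ADC.Table.ext (funext fun k => funext fun s => Finsupp.ext fun c =>
    (table_comp a b i (composable h) k s c).symm)

/-- The image of a cell. -/
def map (f : Fin (m + 1) →o Fin (l + 1)) (a : Cell m) : Cell l :=
  ⟨mapX f a.x, isCell_mapX f a⟩

lemma toTable_map (f : Fin (m + 1) →o Fin (l + 1)) (a : Cell m) :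
    toTable (map f a) = ADC.Table.map (ADC.chainsMap f) (toTable a) :=
  ADC.Table.ext (funext fun k => funext fun s => Finsupp.ext fun c => (table_map f a k s c).symm)

/-- The `m`-th oriental. -/
def obj (m : ℕ) : OCat where
  Cell := Cell m
  src i a := face i false a
  tgt i a := face i true a
  comp := comp
  src_src i j a := toTable_injective (by
    simp only [toTable_face]; exact (ADC.nu (ADC.oriental m)).src_src i j (toTable a))
  tgt_tgt i j a := toTable_injective (by
    simp only [toTable_face]; exact (ADC.nu (ADC.oriental m)).tgt_tgt i j (toTable a))
  src_tgt_lt i j a h := toTable_injective (by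
    simp only [toTable_face]; exact (ADC.nu (ADC.oriental m)).src_tgt_lt i j (toTable a) h)
  src_tgt_ge i j a h := toTable_injective (by
    simp only [toTable_face]; exact (ADC.nu (ADC.oriental m)).src_tgt_ge i j (toTable a) h)
  tgt_src_lt i j a h := toTable_injective (by
    simp only [toTable_face]; exact (ADC.nu (ADC.oriental m)).tgt_src_lt i j (toTable a) h)
  tgt_src_ge i j a h := toTable_injective (by
    simp only [toTable_face]; exact (ADC.nu (ADC.oriental m)).tgt_src_ge i j (toTable a) h)
  exists_dim a := ((ADC.nu (ADC.oriental m)).exists_dim (toTable a)).imp fun k hk =>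
    toTable_injective (by rw [toTable_face]; exact hk)
  comp_unit_right i a h := toTable_injective (by
    simp only [toTable_comp, toTable_face]
    exact (ADC.nu (ADC.oriental m)).comp_unit_right i (toTable a) (by
      have := congrArg toTable h; simp only [toTable_face] at this; exact this))
  comp_unit_left i a h := toTable_injective (by
    simp only [toTable_comp, toTable_face]
    exact (ADC.nu (ADC.oriental m)).comp_unit_left i (toTable a) (by
      have := congrArg toTable h; simp only [toTable_face] at this; exact this))
  src_comp_le i j a b h hj := toTable_injective (by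
    simp only [toTable_comp, toTable_face]
    exact (ADC.nu (ADC.oriental m)).src_comp_le i j _ _ (composable h) hj)
  tgt_comp_le i j a b h hj := toTable_injective (by
    simp only [toTable_comp, toTable_face]
    exact (ADC.nu (ADC.oriental m)).tgt_comp_le i j _ _ (composable h) hj)
  src_comp_gt i j a b h h' hj := toTable_injective (by
    simp only [toTable_comp, toTable_face]
    exact (ADC.nu (ADC.oriental m)).src_comp_gt i j _ _ (composable h)
      (by have := composable h'; simp only [toTable_face] at this; exact this) hj)
  tgt_comp_gt i j a b h h' hj := toTable_injective (by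
    simp only [toTable_comp, toTable_face]
    exact (ADC.nu (ADC.oriental m)).tgt_comp_gt i j _ _ (composable h)
      (by have := composable h'; simp only [toTable_face] at this; exact this) hj)
  assoc i a b c h₁ h₂ h₃ h₄ := toTable_injective (by
    simp only [toTable_comp]
    exact (ADC.nu (ADC.oriental m)).assoc i _ _ _ (composable h₁)
      (by have := composable h₂; simp only [toTable_comp] at this; exact this) (composable h₃)
      (by have := composable h₄; simp only [toTable_comp] at this; exact this))
  interchange i j a b c d h₁ h₂ h₃ h₄ h₅ h₆ hij := toTable_injective (by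
    simp only [toTable_comp]
    exact (ADC.nu (ADC.oriental m)).interchange i j _ _ _ _ (composable h₁) (composable h₂)
      (by have := composable h₃; simp only [toTable_comp] at this; exact this) (composable h₄) (composable h₅)
      (by have := composable h₆; simp only [toTable_comp] at this; exact this) hij)

lemma map_face (f : Fin (m + 1) →o Fin (l + 1)) (i : ℕ) (e : Bool) (a : Cell m) :
    map f (face i e a) = face i e (map f a) := toTable_injective (by
  rw [toTable_map, toTable_face, toTable_face, toTable_map]
  exact ADC.Table.map_face _ _ i e)

lemma map_comp' (f : Fin (m + 1) →o Fin (l + 1)) (i : ℕ) (a b : Cell m)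
    (h : face i false a = face i true b) (h' : face i false (map f a) = face i true (map f b)) :
    map f (comp i a b h) = comp i (map f a) (map f b) h' := toTable_injective (by
  simp only [toTable_comp, toTable_map]
  exact ADC.Table.map_comp _ i _ _ _ _)

/-- The functor induced by a monotone map of vertices. -/
def mapHom (f : Fin (m + 1) →o Fin (l + 1)) : obj m ⟶ obj l where
  map := map f
  map_src i := map_face f i false
  map_tgt i := map_face f i true
  map_comp i := map_comp' f i

lemma map_id_cell (a : Cell m) : map OrderHom.id a = a := toTable_injective (by
  rw [toTable_map, ADC.chainsMap_id]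
  rfl)

lemma map_map {r : ℕ} (f : Fin (m + 1) →o Fin (l + 1)) (g : Fin (l + 1) →o Fin (r + 1))
    (a : Cell m) : map (g.comp f) a = map g (map f a) := toTable_injective (by
  simp only [toTable_map, ADC.chainsMap_comp]
  rfl)

/-- The cosimplicial ω-category of orientals. -/
def functor : SimplexCategory ⥤ OCat where
  obj Δ := obj Δ.len
  map φ := mapHom φ.toOrderHom
  map_id _ := OCat.hom_ext map_id_cell
  map_comp φ ψ := OCat.hom_ext (map_map φ.toOrderHom ψ.toOrderHom)

end Vale.Agent.P213.Oriental
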