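import Vale.Agent.P213.Main.Defs
import Vale.Agent.P213.Main.Oriental.Functor
import Mathlib.CategoryTheory.Limits.Presheaf
import Mathlib.AlgebraicTopology.SimplexCategory.Basic

/-!
# The Street nerve
-/

open CategoryTheory

namespace Vale.Agent.P213.Oriental

noncomputable section

/-- The Street nerve of small strict ω-categories: an `m`-simplex is a strict functor from the
`m`-th oriental. -/
def nerve : OCat ⥤ SSet.{0} := Presheaf.restrictedULiftYoneda.{0} functor

/-- The Street nerve of small strict `n`-categories. -/
def nerveN (n : ℕ∞) : NCat n ⥤ SSet.{0} := NCat.incl n ⋙ nerve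

end

end Vale.Agent.P213.Oriental
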